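import Vale.Agent.Lib.P069.Final

/-!
# P069, Q1: a reflexive Banach space whose norm is AMUC and which is isomorphic to no AUC space

The two moduli are written exactly as in the problem, with infima and suprema taken in the
extended reals. Having an equivalent norm with a given property is expressed through linear
homeomorphisms: an equivalent norm `N` on `X` is the same thing as a linear homeomorphism `e` of
`X` onto a normed space `Y`, with `N x = ‖e x‖`.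
-/

namespace Vale.Agent.Results.P069.NoIsomorphicAUC

/-- `cof(X)`: the closed subspaces of `X` of finite codimension. -/
def cof (X : Type) [NormedAddCommGroup X] [NormedSpace ℝ X] : Set (Submodule ℝ X) :=
  {F | IsClosed (F : Set X) ∧ FiniteDimensional ℝ (X ⧸ F)}

/-- `inf_{‖x‖=1} sup_{F ∈ cof(X)} inf_{y ∈ F, ‖y‖=1} (‖x + t y‖ - 1)`, in the extended reals. -/
noncomputable def delta (X : Type) [NormedAddCommGroup X] [NormedSpace ℝ X] (t : ℝ) : EReal :=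
  ⨅ x ∈ {x : X | ‖x‖ = 1}, ⨆ F ∈ cof X, ⨅ y ∈ {y : X | y ∈ F ∧ ‖y‖ = 1},
    ((‖x + t • y‖ - 1 : ℝ) : EReal)

/-- `inf_{‖x‖=1} sup_{F ∈ cof(X)} inf_{y ∈ F, ‖y‖=1} (max {‖x + t y‖, ‖x - t y‖} - 1)`, in the
extended reals. -/
noncomputable def mid (X : Type) [NormedAddCommGroup X] [NormedSpace ℝ X] (t : ℝ) : EReal :=
  ⨅ x ∈ {x : X | ‖x‖ = 1}, ⨆ F ∈ cof X, ⨅ y ∈ {y : X | y ∈ F ∧ ‖y‖ = 1},
    ((max ‖x + t • y‖ ‖x - t • y‖ - 1 : ℝ) : EReal)

/-- The norm of `X` is asymptotically uniformly convex. -/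
def AUC (X : Type) [NormedAddCommGroup X] [NormedSpace ℝ X] : Prop :=
  ∀ t : ℝ, 0 < t → 0 < delta X t

/-- The norm of `X` is asymptotically midpoint uniformly convex. -/
def AMUC (X : Type) [NormedAddCommGroup X] [NormedSpace ℝ X] : Prop :=
  ∀ t : ℝ, 0 < t → 0 < mid X t

/-- `X` is reflexive: the canonical map of `X` into its bidual is onto. -/
def Reflexive (X : Type) [NormedAddCommGroup X] [NormedSpace ℝ X] : Prop :=
  Function.Surjective (NormedSpace.inclusionInDoubleDual ℝ X)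

private theorem ciInf_le_of_pos {ι : Type} {f : ι → ℝ} (h : 0 < ⨅ i, f i) (i : ι) :
    ⨅ i, f i ≤ f i := by
  refine ciInf_le ?_ i
  by_contra hb
  rw [iInf, Real.sInf_of_not_bddBelow hb] at h
  exact lt_irrefl _ h

private theorem amuc_SX : AMUC Vale.Agent.P069.SX := by
  intro t ht
  have h1 := Vale.Agent.P069.isAMUC_SX t ht
  have hne : Nonempty (Vale.Agent.P069.cof Vale.Agent.P069.SX) :=
    ⟨⟨⊤, isClosed_univ, by infer_instance⟩⟩
  set M : ℝ := Vale.Agent.P069.amucModulus (normSeminorm ℝ Vale.Agent.P069.SX) t with hM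
  refine lt_of_lt_of_le (b := ((M / 2 : ℝ) : EReal)) (EReal.coe_pos.2 (half_pos h1)) ?_
  refine le_iInf₂ fun x hx => ?_
  have h2 : M ≤ ⨆ F : Vale.Agent.P069.cof Vale.Agent.P069.SX,
      ⨅ y : {y : Vale.Agent.P069.SX // y ∈ F.1 ∧ normSeminorm ℝ Vale.Agent.P069.SX y = 1},
        (max (normSeminorm ℝ Vale.Agent.P069.SX (x + t • y.1))
          (normSeminorm ℝ Vale.Agent.P069.SX (x - t • y.1)) - 1) :=
    ciInf_le_of_pos (f := fun x : {x : Vale.Agent.P069.SX //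
        normSeminorm ℝ Vale.Agent.P069.SX x = 1} =>
      ⨆ F : Vale.Agent.P069.cof Vale.Agent.P069.SX,
        ⨅ y : {y : Vale.Agent.P069.SX // y ∈ F.1 ∧ normSeminorm ℝ Vale.Agent.P069.SX y = 1},
        (max (normSeminorm ℝ Vale.Agent.P069.SX (x.1 + t • y.1))
          (normSeminorm ℝ Vale.Agent.P069.SX (x.1 - t • y.1)) - 1)) h1 ⟨x, hx⟩
  obtain ⟨F, hF⟩ := exists_lt_of_lt_ciSup (lt_of_lt_of_le (half_lt_self h1) h2)
  refine le_iSup₂_of_le F.1 F.2 (le_iInf₂ fun y hy => ?_)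
  have h3 := ciInf_le_of_pos
    (f := fun y : {y : Vale.Agent.P069.SX // y ∈ F.1 ∧
        normSeminorm ℝ Vale.Agent.P069.SX y = 1} =>
      (max (normSeminorm ℝ Vale.Agent.P069.SX (x + t • y.1))
          (normSeminorm ℝ Vale.Agent.P069.SX (x - t • y.1)) - 1))
    (lt_trans (half_pos h1) hF) ⟨y, hy.1, hy.2⟩
  exact EReal.coe_le_coe_iff.2 (lt_of_lt_of_le hF h3).le

private theorem fin_comap {X Y : Type} [NormedAddCommGroup X] [NormedSpace ℝ X]
    [NormedAddCommGroup Y] [NormedSpace ℝ Y] (e : X ≃L[ℝ] Y) {F : Submodule ℝ Y}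
    (hF : FiniteDimensional ℝ (Y ⧸ F)) :
    FiniteDimensional ℝ (X ⧸ F.comap (e.toLinearEquiv : X →ₗ[ℝ] Y)) := by
  have h : (F.comap (e.toLinearEquiv : X →ₗ[ℝ] Y)).map (e.toLinearEquiv : X →ₗ[ℝ] Y) = F :=
    Submodule.map_comap_eq_of_surjective e.toLinearEquiv.surjective F
  exact Module.Finite.equiv (Submodule.Quotient.equiv _ F e.toLinearEquiv h).symm

/-- There is an infinite-dimensional reflexive Banach space `X` whose norm is AMUC and such that
no normed space linearly homeomorphic to `X` is AUC. -/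
theorem result :
    ∃ (X : Type) (_ : NormedAddCommGroup X) (_ : NormedSpace ℝ X) (_ : CompleteSpace X),
      ¬ FiniteDimensional ℝ X ∧ Reflexive X ∧ AMUC X ∧
      ∀ (Y : Type) [NormedAddCommGroup Y] [NormedSpace ℝ Y], Nonempty (X ≃L[ℝ] Y) → ¬ AUC Y := by
  refine ⟨Vale.Agent.P069.SX, inferInstance, inferInstance, inferInstance,
    Vale.Agent.P069.not_finiteDimensional_SX, Vale.Agent.P069.isReflexive_SX, amuc_SX, ?_⟩
  intro Y _ _ ⟨e⟩ hY
  let p : Seminorm ℝ Vale.Agent.P069.SX := Seminorm.of (fun x => ‖e x‖)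
    (fun x y => by rw [map_add]; exact norm_add_le _ _)
    (fun a x => by rw [map_smul, norm_smul])
  have hp : Vale.Agent.P069.IsEquivalentNorm p := by
    refine ⟨(‖(e.symm : Y →L[ℝ] Vale.Agent.P069.SX)‖ + 1)⁻¹,
      ‖(e : Vale.Agent.P069.SX →L[ℝ] Y)‖, by positivity, fun x => ⟨?_, ?_⟩⟩
    · have h1 := (e.symm : Y →L[ℝ] Vale.Agent.P069.SX).le_opNorm (e x)
      rw [ContinuousLinearEquiv.coe_coe, ContinuousLinearEquiv.symm_apply_apply] at h1
      have h2 : ‖x‖ ≤ (‖(e.symm : Y →L[ℝ] Vale.Agent.P069.SX)‖ + 1) * ‖e x‖ := by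
        refine h1.trans (mul_le_mul_of_nonneg_right (by linarith) (norm_nonneg _))
      change (‖(e.symm : Y →L[ℝ] Vale.Agent.P069.SX)‖ + 1)⁻¹ * ‖x‖ ≤ ‖e x‖
      rw [inv_mul_le_iff₀ (by positivity)]
      exact h2
    · exact (e : Vale.Agent.P069.SX →L[ℝ] Y).le_opNorm x
  refine Vale.Agent.P069.not_auc p hp ?_
  rw [Vale.Agent.P069.isAUC_iff Vale.Agent.P069.not_finiteDimensional_SX hp]
  intro t ht
  obtain ⟨δ, h0, hδ⟩ := EReal.lt_iff_exists_real_btwn.1 (hY t ht)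
  refine ⟨δ, EReal.coe_pos.1 h0, fun x hx => ?_⟩
  have hx1 : ‖e x‖ = 1 := hx
  have h1 : (δ : EReal) < ⨆ F ∈ cof Y, ⨅ y ∈ {y : Y | y ∈ F ∧ ‖y‖ = 1},
      ((‖e x + t • y‖ - 1 : ℝ) : EReal) := lt_of_lt_of_le hδ (iInf₂_le (e x) hx1)
  simp only [lt_iSup_iff] at h1
  obtain ⟨F, hF, h2⟩ := h1
  refine ⟨F.comap (e.toLinearEquiv : Vale.Agent.P069.SX →ₗ[ℝ] Y),
    ⟨hF.1.preimage e.continuous, fin_comap e hF.2⟩, fun y hy hy1 => ?_⟩
  have h3 : (δ : EReal) < ((‖e x + t • e y‖ - 1 : ℝ) : EReal) :=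
    lt_of_lt_of_le h2 (iInf₂_le (e y) ⟨hy, hy1⟩)
  have h4 : δ < ‖e x + t • e y‖ - 1 := EReal.coe_lt_coe_iff.1 h3
  change 1 + δ ≤ ‖e (x + t • y)‖
  rw [map_add, map_smul]
  linarith

end Vale.Agent.Results.P069.NoIsomorphicAUC
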