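import Vale.Agent.Lib.P069.Final

/-!
# P069: it is not true that every reflexive AMUC renormable space is AUC renormable

The statement is the negation of the assertion of the question, with the two convexity
properties in their epsilon-delta form and no auxiliary moduli.
-/

namespace Vale.Agent.Results.P069.NotAllAUC

/-- `N` is a norm on `X` which is equivalent to the given norm. -/
def IsEquivNorm {X : Type} [NormedAddCommGroup X] [NormedSpace ℝ X] (N : X → ℝ) : Prop :=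
  (∀ x y : X, N (x + y) ≤ N x + N y) ∧ (∀ (a : ℝ) (x : X), N (a • x) = |a| * N x) ∧
    ∃ c C : ℝ, 0 < c ∧ 0 < C ∧ ∀ x : X, c * ‖x‖ ≤ N x ∧ N x ≤ C * ‖x‖

/-- `F` is a closed subspace of finite codimension. -/
def IsCof {X : Type} [NormedAddCommGroup X] [NormedSpace ℝ X] (F : Submodule ℝ X) : Prop :=
  IsClosed (F : Set X) ∧ FiniteDimensional ℝ (X ⧸ F)

/-- For every `t > 0` there is `δ > 0` such that for every `x` with `N x = 1` there is a closed
subspace `F` of finite codimension with `N (x + t y) ≥ 1 + δ` for all `y ∈ F`, `N y = 1`. -/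
def AUC {X : Type} [NormedAddCommGroup X] [NormedSpace ℝ X] (N : X → ℝ) : Prop :=
  ∀ t : ℝ, 0 < t → ∃ δ : ℝ, 0 < δ ∧ ∀ x : X, N x = 1 →
    ∃ F : Submodule ℝ X, IsCof F ∧ ∀ y ∈ F, N y = 1 → 1 + δ ≤ N (x + t • y)

/-- The same with the maximum of `N (x + t y)` and `N (x - t y)`. -/
def AMUC {X : Type} [NormedAddCommGroup X] [NormedSpace ℝ X] (N : X → ℝ) : Prop :=
  ∀ t : ℝ, 0 < t → ∃ δ : ℝ, 0 < δ ∧ ∀ x : X, N x = 1 →
    ∃ F : Submodule ℝ X, IsCof F ∧
      ∀ y ∈ F, N y = 1 → 1 + δ ≤ max (N (x + t • y)) (N (x - t • y))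

theorem iInf_le_of_pos {ι : Type} {f : ι → ℝ} (h : 0 < ⨅ i, f i) (i : ι) : ⨅ i, f i ≤ f i := by
  refine ciInf_le ?_ i
  by_contra hb
  rw [iInf, Real.sInf_of_not_bddBelow hb] at h
  exact lt_irrefl _ h

theorem amuc_of_modulus {X : Type} [NormedAddCommGroup X] [NormedSpace ℝ X] {N : Seminorm ℝ X}
    (h : Vale.Agent.P069.IsAMUC N) : AMUC (fun x => N x) := by
  intro t ht
  have h1 := h t ht
  have hne : Nonempty (Vale.Agent.P069.cof X) :=
    ⟨⟨⊤, isClosed_univ, by infer_instance⟩⟩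
  refine ⟨Vale.Agent.P069.amucModulus N t / 2, half_pos h1, fun x hx => ?_⟩
  have h2 : Vale.Agent.P069.amucModulus N t ≤
      ⨆ F : Vale.Agent.P069.cof X, ⨅ y : {y : X // y ∈ F.1 ∧ N y = 1},
        (max (N (x + t • y.1)) (N (x - t • y.1)) - 1) :=
    iInf_le_of_pos (f := fun x : {x : X // N x = 1} =>
      ⨆ F : Vale.Agent.P069.cof X, ⨅ y : {y : X // y ∈ F.1 ∧ N y = 1},
        (max (N (x.1 + t • y.1)) (N (x.1 - t • y.1)) - 1)) h1 ⟨x, hx⟩
  obtain ⟨F, hF⟩ := exists_lt_of_lt_ciSup (lt_of_lt_of_le (half_lt_self h1) h2)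
  refine ⟨F.1, F.2, fun y hy hy1 => ?_⟩
  have h3 := iInf_le_of_pos (f := fun y : {y : X // y ∈ F.1 ∧ N y = 1} =>
    (max (N (x + t • y.1)) (N (x - t • y.1)) - 1)) (lt_trans (half_pos h1) hF) ⟨y, hy, hy1⟩
  have h4 := lt_of_lt_of_le hF h3
  simp only at h4
  linarith

theorem result : ¬ ∀ (X : Type) [NormedAddCommGroup X] [NormedSpace ℝ X] [CompleteSpace X],
    ¬ FiniteDimensional ℝ X →
    (∀ φ : (X →L[ℝ] ℝ) →L[ℝ] ℝ, ∃ x : X, ∀ f : X →L[ℝ] ℝ, φ f = f x) →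
    (∃ N : X → ℝ, IsEquivNorm N ∧ AMUC N) → ∃ N : X → ℝ, IsEquivNorm N ∧ AUC N := by
  intro hall
  obtain ⟨N, ⟨hadd, hsmul, c, C, hc, _, hcC⟩, hauc⟩ := hall Vale.Agent.P069.SX
    Vale.Agent.P069.not_finiteDimensional_SX
    (by
      intro φ
      obtain ⟨x, hx⟩ := Vale.Agent.P069.isReflexive_SX φ
      refine ⟨x, fun f => ?_⟩
      rw [← hx]
      rfl)
    ⟨fun x => normSeminorm ℝ Vale.Agent.P069.SX x, ⟨norm_add_le,
      fun a x => norm_smul a x,
      1, 1, one_pos, one_pos, fun x => ⟨le_of_eq (one_mul _), le_of_eq (one_mul _).symm⟩⟩,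
      amuc_of_modulus Vale.Agent.P069.isAMUC_SX⟩
  let p : Seminorm ℝ Vale.Agent.P069.SX :=
    Seminorm.of N hadd (fun a x => by rw [hsmul, Real.norm_eq_abs])
  have hp : Vale.Agent.P069.IsEquivalentNorm p := ⟨c, C, hc, hcC⟩
  refine Vale.Agent.P069.not_auc p hp ?_
  rw [Vale.Agent.P069.isAUC_iff Vale.Agent.P069.not_finiteDimensional_SX hp]
  intro t ht
  obtain ⟨δ, hδ, h⟩ := hauc t ht
  refine ⟨δ, hδ, fun x hx => ?_⟩
  obtain ⟨F, hF, h2⟩ := h x hx
  exact ⟨F, hF, fun y hy hy1 => h2 y hy hy1⟩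

end Vale.Agent.Results.P069.NotAllAUC
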