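import Vale.Agent.Lib.P069.Final

/-!
# P069: a reflexive AMUC space which is not AUC renormable

There is a separable, infinite-dimensional, reflexive real Banach space whose norm is
asymptotically midpoint uniformly convex (with modulus of power type two) and which has no
equivalent asymptotically uniformly convex norm.
-/

namespace Vale.Agent.Results.P069.ReflexiveAMUCnotAUC

open Vale.Agent.P069

theorem result :
    ∃ (X : Type) (_ : NormedAddCommGroup X) (_ : NormedSpace ℝ X),
      CompleteSpace X ∧ TopologicalSpace.SeparableSpace X ∧ ¬ FiniteDimensional ℝ X ∧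
      IsReflexive X ∧
      IsAMUC (normSeminorm ℝ X) ∧
      (∀ t : ℝ, 0 < t → t ≤ 1 → t ^ 2 / 78 ≤ amucModulus (normSeminorm ℝ X) t) ∧
      ∀ N : Seminorm ℝ X, IsEquivalentNorm N → ¬ IsAUC N :=
  ⟨SX, inferInstance, inferInstance, inferInstance, inferInstance, not_finiteDimensional_SX,
    isReflexive_SX, isAMUC_SX, fun _ ht ht1 => amucModulus_SX_power ht ht1, not_auc⟩

end Vale.Agent.Results.P069.ReflexiveAMUCnotAUC
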